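import Mathlib.Analysis.SpecialFunctions.Log.Basic
import Mathlib.Analysis.SpecialFunctions.Pow.Asymptotics
import Mathlib.Data.Nat.Log
import Mathlib.Tactic

/-!
# The numbers of the small constant
-/

namespace Vale.Agent.P057.H559

/-- the cost with a large Vandermonde size is a small multiple of the degree -/
theorem num_cost (θ : ℝ) (hθ : 0 < θ) : ∃ v : ℕ, 3 ≤ v ∧ ∃ D0 : ℕ, ∀ D : ℕ, D0 ≤ D →
    ((D / (v * (v - 1) / 2) + 1 : ℕ) : ℝ) * Real.log v.factorial + 2 * Real.log 2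
      ≤ θ * D * Real.log 2 := by
  have hl2 : 0 < Real.log 2 := Real.log_pos (by norm_num)
  -- log v / (v - 1) is small
  have h1 : ∃ v : ℕ, 3 ≤ v ∧ Real.log v ≤ (θ * Real.log 2 / 4) * ((v : ℝ) - 1) := by
    have h2 := Real.isLittleO_log_id_atTop
    have h3 := (h2.comp_tendsto tendsto_natCast_atTop_atTop).bound
      (show 0 < θ * Real.log 2 / 8 by positivity)
    obtain ⟨v0, hv0⟩ := Filter.eventually_atTop.1 h3
    refine ⟨max v0 3, le_max_right _ _, ?_⟩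
    have h4 := hv0 (max v0 3) (le_max_left _ _)
    simp only [Function.comp, id, Real.norm_eq_abs] at h4
    have h5 : (3 : ℝ) ≤ ((max v0 3 : ℕ) : ℝ) := by exact_mod_cast le_max_right _ _
    have h6 : |((max v0 3 : ℕ) : ℝ)| = ((max v0 3 : ℕ) : ℝ) := abs_of_nonneg (by linarith)
    rw [h6] at h4
    have h7 := (le_abs_self _).trans h4
    have h8 : θ * Real.log 2 / 8 * ((max v0 3 : ℕ) : ℝ)
        ≤ (θ * Real.log 2 / 4) * (((max v0 3 : ℕ) : ℝ) - 1) := by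
      have : 0 < θ * Real.log 2 := by positivity
      nlinarith
    exact h7.trans h8
  obtain ⟨v, hv3, hv⟩ := h1
  refine ⟨v, hv3, ?_⟩
  have hv3' : (3 : ℝ) ≤ v := by exact_mod_cast hv3
  set E := v * (v - 1) / 2 with hE
  have hEr : (E : ℝ) = (v : ℝ) * ((v : ℝ) - 1) / 2 := by
    have h2 : 2 * E = v * (v - 1) := Nat.mul_div_cancel' (Nat.even_mul_pred_self v).two_dvd
    have h3 : (2 : ℝ) * (E : ℝ) = (v : ℝ) * ((v - 1 : ℕ) : ℝ) := by exact_mod_cast h2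
    rw [Nat.cast_sub (by omega : 1 ≤ v)] at h3
    push_cast at h3
    linarith
  have hE0 : (0 : ℝ) < E := by
    rw [hEr]
    have : 0 < (v : ℝ) - 1 := by linarith
    positivity
  have hfac : Real.log v.factorial ≤ v * Real.log v := by
    have h2 : ((v.factorial : ℕ) : ℝ) ≤ (v : ℝ) ^ v := by exact_mod_cast Nat.factorial_le_pow v
    have h3 := Real.log_le_log (by exact_mod_cast Nat.factorial_pos v) h2
    rwa [Real.log_pow] at h3
  have hfac0 : 0 ≤ Real.log v.factorial := Real.log_natCast_nonneg _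
  -- log N ≤ θ log 2 / 2 * E
  have hkey : Real.log v.factorial ≤ θ * Real.log 2 / 2 * E := by
    rw [hEr]
    have h2 : (v : ℝ) * Real.log v ≤ v * ((θ * Real.log 2 / 4) * ((v : ℝ) - 1)) :=
      mul_le_mul_of_nonneg_left hv (by linarith)
    linarith
  obtain ⟨D0, hD0⟩ := exists_nat_ge ((Real.log v.factorial + 2 * Real.log 2) /
    (θ * Real.log 2 / 2))
  refine ⟨D0, fun D hD => ?_⟩
  have hD' : (Real.log v.factorial + 2 * Real.log 2) / (θ * Real.log 2 / 2) ≤ D :=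
    hD0.trans (by exact_mod_cast hD)
  rw [div_le_iff₀ (by positivity)] at hD'
  have h5 : ((D / E : ℕ) : ℝ) * E ≤ D := by exact_mod_cast Nat.div_mul_le_self D E
  have h6 : ((D / E : ℕ) : ℝ) * Real.log v.factorial ≤ θ * Real.log 2 / 2 * D := by
    have h7 : ((D / E : ℕ) : ℝ) * Real.log v.factorial
        ≤ ((D / E : ℕ) : ℝ) * (θ * Real.log 2 / 2 * E) :=
      mul_le_mul_of_nonneg_left hkey (Nat.cast_nonneg _)
    have h8 : θ * Real.log 2 / 2 * (((D / E : ℕ) : ℝ) * E) ≤ θ * Real.log 2 / 2 * D :=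
      mul_le_mul_of_nonneg_left h5 (by positivity)
    linarith
  push_cast
  linarith

/-- the window and the exponent: everything fits below `D ^ 10` -/
theorem num_window (N E : ℕ) (hN : 1 ≤ N) (hE : 1 ≤ E) (m : ℕ → ℝ) (C : ℝ) (hC : 0 ≤ C)
    (hm : ∀ D : ℕ, 1 ≤ D → m D ≤ C * (D : ℝ) ^ 3) : ∃ D1 : ℕ, ∀ D : ℕ, D1 ≤ D →
    ∃ L w : ℕ, (D / E + 1) * E < L ∧ L ^ (((D / E + 1) * E) * ((D / E + 1) * E)) < 2 ^ w ∧
      2 * (((D / E + 1) * E : ℕ) : ℝ) ^ 2 * (((w : ℝ) + 1) * m D) < L ∧ N * L ≤ D ^ 10 ∧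
      N * (D + 5) ≤ D ^ 10 := by
  obtain ⟨C', hC'⟩ := exists_nat_ge (700 * C + 10)
  refine ⟨N + E + C' + 10, fun D hD => ?_⟩
  have hDN : N ≤ D := by omega
  have hDE : E ≤ D := by omega
  have hDC : C' ≤ D := by omega
  have hD10 : 10 ≤ D := by omega
  set d := (D / E + 1) * E with hd
  have hd2 : d ≤ 2 * D := by
    have h1 : D / E * E ≤ D := Nat.div_mul_le_self D E
    have h2 : d = D / E * E + E := by rw [hd]; ring
    omega
  have hd1 : 1 ≤ d := by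
    have h2 : d = D / E * E + E := by rw [hd]; ring
    omega
  have hD9 : 2 * D < D ^ 9 := by
    calc 2 * D < 10 * D := by omega
      _ ≤ D * D := Nat.mul_le_mul_right _ hD10
      _ = D ^ 2 := by ring
      _ ≤ D ^ 9 := Nat.pow_le_pow_right (by omega) (by norm_num)
  refine ⟨D ^ 9, d * d * (Nat.log 2 (D ^ 9) + 1), lt_of_le_of_lt hd2 hD9, ?_, ?_, ?_, ?_⟩
  · rw [mul_comm (d * d) (Nat.log 2 (D ^ 9) + 1), pow_mul 2 (Nat.log 2 (D ^ 9) + 1) (d * d)]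
    exact Nat.pow_lt_pow_left (Nat.lt_pow_succ_log_self (b := 2) (by norm_num) (D ^ 9))
      (by positivity)
  · have hlog : Nat.log 2 (D ^ 9) ≤ 9 * D := by
      have h1 : D ^ 9 < 2 ^ (9 * D) := by
        rw [mul_comm, pow_mul]
        exact Nat.pow_lt_pow_left Nat.lt_two_pow_self (by norm_num)
      exact (Nat.log_lt_of_lt_pow (by positivity) h1).le
    have hdr : ((d : ℕ) : ℝ) ≤ 2 * D := by exact_mod_cast hd2
    have hd0 : (0 : ℝ) ≤ (d : ℝ) := Nat.cast_nonneg _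
    have hDr : (10 : ℝ) ≤ D := by exact_mod_cast hD10
    have hlr : ((Nat.log 2 (D ^ 9) : ℕ) : ℝ) ≤ 9 * D := by exact_mod_cast hlog
    have hl0 : (0 : ℝ) ≤ ((Nat.log 2 (D ^ 9) : ℕ) : ℝ) := Nat.cast_nonneg _
    have hw : (((d * d * (Nat.log 2 (D ^ 9) + 1) : ℕ) : ℝ) + 1) ≤ 44 * (D : ℝ) ^ 3 := by
      push_cast
      have h1 : (d : ℝ) * d ≤ 4 * (D : ℝ) ^ 2 := by nlinarith
      have h2 : (d : ℝ) * d * (((Nat.log 2 (D ^ 9) : ℕ) : ℝ) + 1) ≤ 4 * (D : ℝ) ^ 2 * (9 * D + 1) := by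
        apply mul_le_mul h1 (by linarith) (by linarith) (by positivity)
      have h3 : 4 * (D : ℝ) ^ 2 * (9 * D + 1) + 1 ≤ 44 * (D : ℝ) ^ 3 := by
        have : (1 : ℝ) ≤ (D : ℝ) ^ 2 := by nlinarith
        nlinarith
      linarith
    have hmD := hm D (by omega)
    have hm3 : (((d * d * (Nat.log 2 (D ^ 9) + 1) : ℕ) : ℝ) + 1) * m D
        ≤ 44 * (D : ℝ) ^ 3 * (C * (D : ℝ) ^ 3) := by
      rcases le_or_gt 0 (m D) with h0 | h0
      · exact mul_le_mul hw hmD h0 (by positivity)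
      · have h1 : (((d * d * (Nat.log 2 (D ^ 9) + 1) : ℕ) : ℝ) + 1) * m D ≤ 0 :=
          mul_nonpos_of_nonneg_of_nonpos (by positivity) h0.le
        have h2 : 0 ≤ 44 * (D : ℝ) ^ 3 * (C * (D : ℝ) ^ 3) := by positivity
        linarith
    have h4 : 2 * ((d : ℕ) : ℝ) ^ 2 * ((((d * d * (Nat.log 2 (D ^ 9) + 1) : ℕ) : ℝ) + 1) * m D)
        ≤ 2 * (4 * (D : ℝ) ^ 2) * (44 * (D : ℝ) ^ 3 * (C * (D : ℝ) ^ 3)) := by
      have h5 : ((d : ℕ) : ℝ) ^ 2 ≤ 4 * (D : ℝ) ^ 2 := by nlinarith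
      have h6 : 0 ≤ 44 * (D : ℝ) ^ 3 * (C * (D : ℝ) ^ 3) := by positivity
      have h7 : 2 * ((d : ℕ) : ℝ) ^ 2 * ((((d * d * (Nat.log 2 (D ^ 9) + 1) : ℕ) : ℝ) + 1) * m D)
          ≤ 2 * ((d : ℕ) : ℝ) ^ 2 * (44 * (D : ℝ) ^ 3 * (C * (D : ℝ) ^ 3)) :=
        mul_le_mul_of_nonneg_left hm3 (by positivity)
      have h8 : 2 * ((d : ℕ) : ℝ) ^ 2 * (44 * (D : ℝ) ^ 3 * (C * (D : ℝ) ^ 3))
          ≤ 2 * (4 * (D : ℝ) ^ 2) * (44 * (D : ℝ) ^ 3 * (C * (D : ℝ) ^ 3)) :=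
        mul_le_mul_of_nonneg_right (by linarith) h6
      linarith
    refine lt_of_le_of_lt h4 ?_
    have hCD : 700 * C + 10 ≤ D := hC'.trans (by exact_mod_cast hDC)
    have h9 : 2 * (4 * (D : ℝ) ^ 2) * (44 * (D : ℝ) ^ 3 * (C * (D : ℝ) ^ 3))
        = 352 * C * (D : ℝ) ^ 8 := by ring
    rw [h9]
    push_cast
    have h10 : (0 : ℝ) < (D : ℝ) ^ 8 := by positivity
    have h11 : 352 * C < D := by nlinarith
    calc 352 * C * (D : ℝ) ^ 8 < D * (D : ℝ) ^ 8 := by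
          apply mul_lt_mul_of_pos_right h11 h10
      _ = (D : ℝ) ^ 9 := by ring
  · calc N * D ^ 9 ≤ D * D ^ 9 := Nat.mul_le_mul_right _ hDN
      _ = D ^ 10 := by ring
  · calc N * (D + 5) ≤ D * (2 * D) := Nat.mul_le_mul hDN (by omega)
      _ ≤ D * D ^ 9 := Nat.mul_le_mul_left _ hD9.le
      _ = D ^ 10 := by ring

end Vale.Agent.P057.H559
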