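import Vale.Agent.P057.H203.TowFin
import Vale.Agent.P057.H562.Per
import Vale.Agent.P057.H559.Num

/-!
# The costs at all large levels, from the block
-/

namespace Vale.Agent.P057.H559

open Vale.Agent.P057.Lower

theorem Cost.mono {k D : ℕ} {c c' : ℝ} (h : Cost k D c) (hc : c ≤ c') : Cost k D c' := by
  intro η hη
  obtain ⟨m0, hm0⟩ := h η hη
  refine ⟨m0, fun p hp hpp => ?_⟩
  obtain ⟨U, h1, h2, h3⟩ := hm0 p hp hpp
  exact ⟨U, h1, h2, le_trans (Real.exp_le_exp.2 (by linarith)) h3⟩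

theorem cost_all
    (BL : ∀ (v D k r L w : ℕ), 2 ≤ v → 1 ≤ D → D + 1 ≤ r * (v * (v - 1) / 2) →
      v.factorial * L ≤ k → v.factorial * (D + 5) ≤ k → r * (v * (v - 1) / 2) < L →
      L ^ ((r * (v * (v - 1) / 2)) * (r * (v * (v - 1) / 2))) < 2 ^ w →
      2 * ((r * (v * (v - 1) / 2) : ℕ) : ℝ) ^ 2 *
        (((w : ℝ) + 1) * Real.log (Vale.Agent.P057.H562.modu v.factorial D)) < L →
      Cost k D (r * Real.log v.factorial + 2 * Real.log 2))
    (LM : ∀ N D : ℕ, 2 ≤ N → Real.log (Vale.Agent.P057.H562.modu N D)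
      ≤ ((D : ℝ) + 2) ^ 2 * (Real.log N + Real.log ((D : ℝ) + 2) + 1)) :
    ∀ θ : ℝ, 0 < θ → ∃ D0 K0 : ℕ, ∀ k, K0 ≤ k → ∀ D : ℕ, D0 ≤ D → D ^ 10 ≤ k →
      Cost k D (θ * D * Real.log 2) := by
  intro θ hθ
  obtain ⟨v, hv, D0, hD0⟩ := num_cost θ hθ
  have hN2 : 2 ≤ v.factorial := by
    calc 2 ≤ v := by omega
      _ ≤ v.factorial := Nat.self_le_factorial v
  have hE : 1 ≤ v * (v - 1) / 2 := by
    have : 2 * 1 ≤ v * (v - 1) := by
      calc 2 * 1 ≤ 3 * 2 := by norm_num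
        _ ≤ v * (v - 1) := Nat.mul_le_mul hv (by omega)
    omega
  have hlN : 0 ≤ Real.log v.factorial := Real.log_natCast_nonneg _
  obtain ⟨D1, hD1⟩ := num_window v.factorial (v * (v - 1) / 2) (by omega) hE
    (fun D => Real.log (Vale.Agent.P057.H562.modu v.factorial D))
    (9 * (Real.log v.factorial + 4)) (by positivity) (by
      intro D hD
      have hDr : (1 : ℝ) ≤ D := by exact_mod_cast hD
      refine (LM _ D hN2).trans ?_
      have h1 : ((D : ℝ) + 2) ^ 2 ≤ 9 * (D : ℝ) ^ 2 := by nlinarith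
      have h2 : Real.log ((D : ℝ) + 2) ≤ (D : ℝ) + 2 - 1 := Real.log_le_sub_one_of_pos (by linarith)
      have h3 : Real.log v.factorial + Real.log ((D : ℝ) + 2) + 1
          ≤ (Real.log v.factorial + 4) * D := by
        nlinarith
      have h4 : 0 ≤ Real.log v.factorial + Real.log ((D : ℝ) + 2) + 1 := by
        have := Real.log_nonneg (show (1 : ℝ) ≤ (D : ℝ) + 2 by linarith)
        linarith
      calc ((D : ℝ) + 2) ^ 2 * (Real.log v.factorial + Real.log ((D : ℝ) + 2) + 1)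
          ≤ 9 * (D : ℝ) ^ 2 * ((Real.log v.factorial + 4) * D) :=
            mul_le_mul h1 h3 h4 (by positivity)
        _ = 9 * (Real.log v.factorial + 4) * (D : ℝ) ^ 3 := by ring)
  refine ⟨D0 + D1 + 1, 0, fun k _ D hD hk => ?_⟩
  obtain ⟨L, w, h1, h2, h3, h4, h5⟩ := hD1 D (by omega)
  have hr : D + 1 ≤ (D / (v * (v - 1) / 2) + 1) * (v * (v - 1) / 2) := by
    rw [mul_comm]
    exact Nat.lt_mul_div_succ D hE
  exact Cost.mono (BL v D k (D / (v * (v - 1) / 2) + 1) L w (by omega) (by omega) hr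
    (h4.trans hk) (h5.trans hk) h1 h2 h3) (hD0 D (by omega))

end Vale.Agent.P057.H559
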