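import Mathlib.Algebra.Group.ForwardDiff
import Mathlib.LinearAlgebra.Vandermonde
import Mathlib.Algebra.Polynomial.AlgebraMap
import Mathlib.Algebra.Polynomial.Monic
import Mathlib.Algebra.Polynomial.BigOperators
import Mathlib.Order.Interval.Finset.Fin
import Mathlib.Tactic

/-!
# The power of the Vandermonde polynomial kills small sequences with divisible differences
-/

namespace Vale.Agent.P057.H559

open Polynomial Finset

/-- the shift of sequences on the integers -/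
noncomputable def Sh : Module.End ℤ (ℤ → ℤ) where
  toFun v := fun t => v (t + 1)
  map_add' _ _ := rfl
  map_smul' _ _ := rfl

theorem Sh_apply (v : ℤ → ℤ) (t : ℤ) : Sh v t = v (t + 1) := rfl

theorem Sh_pow (m : ℕ) (v : ℤ → ℤ) (t : ℤ) : (Sh ^ m) v t = v (t + m) := by
  induction m generalizing t with
  | zero => simp
  | succ m ih =>
    rw [pow_succ', Module.End.mul_apply, Sh_apply, ih]
    congr 1
    push_cast
    ring

/-- the action of a polynomial in the shift -/
noncomputable def act (P : ℤ[X]) (v : ℤ → ℤ) : ℤ → ℤ := aeval Sh P v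

theorem act_mul (P Q : ℤ[X]) (v : ℤ → ℤ) : act (P * Q) v = act P (act Q v) := by
  unfold act
  rw [map_mul, Module.End.mul_apply]

theorem act_one (v : ℤ → ℤ) : act 1 v = v := by
  unfold act
  rw [map_one, Module.End.one_apply]

theorem act_X_pow (m : ℕ) (v : ℤ → ℤ) (t : ℤ) : act (X ^ m) v t = v (t + m) := by
  unfold act
  rw [map_pow, aeval_X, Sh_pow]

theorem act_X_pow_sub_one (m : ℕ) (v : ℤ → ℤ) (t : ℤ) :
    act (X ^ m - 1) v t = v (t + m) - v t := by
  have : act (X ^ m - 1) v = act (X ^ m) v - v := by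
    unfold act
    rw [map_sub, map_one]
    rfl
  rw [this, Pi.sub_apply, act_X_pow]

theorem act_eq_sum (P : ℤ[X]) (v : ℤ → ℤ) (t : ℤ) :
    act P v t = ∑ i ∈ range (P.natDegree + 1), P.coeff i * v (t + i) := by
  unfold act
  rw [aeval_eq_sum_range]
  simp only [LinearMap.sum_apply, Finset.sum_apply, LinearMap.smul_apply, Pi.smul_apply, Sh_pow,
    smul_eq_mul]

/-- the Vandermonde polynomial without its power of `X` -/
noncomputable def G (n : ℕ) : ℤ[X] := ∏ i : Fin n, ∏ j ∈ Ioi i, (X ^ ((j : ℕ) - (i : ℕ)) - 1)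

theorem det_eq (n : ℕ) : (Matrix.vandermonde fun i : Fin n => (X : ℤ[X]) ^ (i : ℕ)).det
    = X ^ (∑ i : Fin n, ∑ _j ∈ Ioi i, (i : ℕ)) * G n := by
  rw [Matrix.det_vandermonde, G, ← Finset.prod_pow_eq_pow_sum, ← Finset.prod_mul_distrib]
  apply Finset.prod_congr rfl
  intro i _
  rw [← Finset.prod_pow_eq_pow_sum, ← Finset.prod_mul_distrib]
  apply Finset.prod_congr rfl
  intro j hj
  rw [Finset.mem_Ioi] at hj
  have : (j : ℕ) = i + (j - i : ℕ) := by
    have : (i : ℕ) < j := hj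
    omega
  rw [mul_sub, ← pow_add, ← this, mul_one]

theorem act_det (n : ℕ) (v : ℤ → ℤ) (c : ℤ) (hv : ∀ t, |v t| ≤ c) (t : ℤ) :
    |act (Matrix.vandermonde fun i : Fin n => (X : ℤ[X]) ^ (i : ℕ)).det v t|
      ≤ n.factorial * c := by
  have h1 : act (Matrix.vandermonde fun i : Fin n => (X : ℤ[X]) ^ (i : ℕ)).det v t
      = ∑ σ : Equiv.Perm (Fin n), (Equiv.Perm.sign σ : ℤ) *
        v (t + (∑ i : Fin n, ((σ i : Fin n) : ℕ) * (i : ℕ) : ℕ)) := by
    unfold act
    rw [Matrix.det_apply, map_sum, LinearMap.sum_apply, Finset.sum_apply]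
    apply Finset.sum_congr rfl
    intro σ _
    have h2 : ∏ i, (Matrix.vandermonde fun i : Fin n => (X : ℤ[X]) ^ (i : ℕ)) (σ i) i
        = X ^ (∑ i : Fin n, ((σ i : Fin n) : ℕ) * (i : ℕ)) := by
      rw [← Finset.prod_pow_eq_pow_sum]
      apply Finset.prod_congr rfl
      intro i _
      rw [Matrix.vandermonde_apply, pow_mul]
    rw [h2, Units.smul_def, map_zsmul, map_pow, aeval_X, LinearMap.smul_apply, Pi.smul_apply,
      Sh_pow, smul_eq_mul]
  rw [h1]
  refine (Finset.abs_sum_le_sum_abs _ _).trans ?_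
  have h3 : ∀ σ ∈ (Finset.univ : Finset (Equiv.Perm (Fin n))), |(Equiv.Perm.sign σ : ℤ) *
        v (t + (∑ i : Fin n, ((σ i : Fin n) : ℕ) * (i : ℕ) : ℕ))| ≤ c := by
    intro σ _
    rw [abs_mul]
    rcases Int.units_eq_one_or (Equiv.Perm.sign σ) with h | h
    · simpa [h] using hv _
    · simpa [h] using hv _
  refine (Finset.sum_le_sum h3).trans ?_
  rw [Finset.sum_const, Finset.card_univ, Fintype.card_perm, Fintype.card_fin, nsmul_eq_mul]

theorem act_G (n : ℕ) (v : ℤ → ℤ) (c : ℤ) (hv : ∀ t, |v t| ≤ c) (t : ℤ) :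
    |act (G n) v t| ≤ n.factorial * c := by
  have h1 := act_det n v c hv (t - (∑ i : Fin n, ∑ _j ∈ Ioi i, (i : ℕ) : ℕ))
  rw [det_eq, act_mul, act_X_pow, sub_add_cancel] at h1
  exact h1

theorem act_G_pow (n r : ℕ) (v : ℤ → ℤ) (c : ℤ) (hv : ∀ t, |v t| ≤ c) (t : ℤ) :
    |act (G n ^ r) v t| ≤ n.factorial ^ r * c := by
  induction r generalizing t with
  | zero => simpa [act_one] using hv t
  | succ r ih =>
    rw [pow_succ', act_mul, pow_succ', mul_assoc]
    exact act_G n _ _ ih t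

theorem card_pairs (n : ℕ) : ∑ i : Fin n, (Ioi i).card = n * (n - 1) / 2 := by
  have : ∀ i : Fin n, (Ioi i).card = n - 1 - i := fun i => Fin.card_Ioi i
  simp only [this]
  rw [Fin.sum_univ_eq_sum_range (fun i => n - 1 - i) n, Finset.sum_range_reflect (fun i => i) n,
    Finset.sum_range_id]

theorem X_sub_one_dvd (n : ℕ) : (X - 1 : ℤ[X]) ^ (n * (n - 1) / 2) ∣ G n := by
  rw [← card_pairs, ← Finset.prod_pow_eq_pow_sum, G]
  apply Finset.prod_dvd_prod_of_dvd
  intro i _
  rw [← Finset.prod_const]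
  apply Finset.prod_dvd_prod_of_dvd
  intro j _
  exact sub_one_dvd_pow_sub_one _ _

theorem G_dvd (n : ℕ) : G n ∣ (X ^ n.factorial - 1 : ℤ[X]) ^ (n * (n - 1) / 2) := by
  rw [← card_pairs, ← Finset.prod_pow_eq_pow_sum, G]
  apply Finset.prod_dvd_prod_of_dvd
  intro i _
  rw [← Finset.prod_const]
  apply Finset.prod_dvd_prod_of_dvd
  intro j hj
  rw [Finset.mem_Ioi] at hj
  have hij : (i : ℕ) < j := hj
  obtain ⟨m, hm⟩ : ((j : ℕ) - (i : ℕ)) ∣ n.factorial :=
    Nat.dvd_factorial (by omega) (by have := j.2; omega)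
  rw [hm, pow_mul]
  exact sub_one_dvd_pow_sub_one _ _

theorem fd_eq (k : ℕ) (u : ℕ → ℤ) (v : ℤ → ℤ) (hv : ∀ j : ℕ, j < k → v j = u j) (h m : ℕ) :
    ∀ j : ℕ, j + h * m < k → (fwdDiff h)^[m] u j = act ((X ^ h - 1) ^ m) v j := by
  induction m with
  | zero =>
    intro j hj
    simp only [Function.iterate_zero, id, pow_zero, act_one]
    exact (hv j (by omega)).symm
  | succ m ih =>
    intro j hj
    rw [Function.iterate_succ_apply', fwdDiff, pow_succ', act_mul, act_X_pow_sub_one,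
      ih (j + h) (by rw [mul_add, mul_one] at hj; omega), ih j (by rw [mul_add, mul_one] at hj; omega)]
    push_cast
    rfl

theorem vand_kill (n r D k p h : ℕ) (hn : 2 ≤ n) (hr : D + 1 ≤ r * (n * (n - 1) / 2))
    (hp : n.factorial ^ r * h < p) (u : ℕ → ℤ) (hu : ∀ j < k, |u j| ≤ h)
    (hd : ∀ j, j + (D + 1) < k → (p : ℤ) ∣ (fwdDiff 1)^[D + 1] u j) :
    ∀ j, j + n.factorial * (r * (n * (n - 1) / 2)) < k →
      (fwdDiff n.factorial)^[r * (n * (n - 1) / 2)] u j = 0 := by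
  set E := n * (n - 1) / 2 with hE
  set N := n.factorial with hN
  have hN0 : N ≠ 0 := Nat.factorial_ne_zero n
  set v : ℤ → ℤ := fun t => if 0 ≤ t ∧ t < k then u t.toNat else 0 with hvdef
  have hv0 : ∀ j : ℕ, j < k → v j = u j := by
    intro j hj
    rw [hvdef]
    simp only
    rw [if_pos ⟨by positivity, by exact_mod_cast hj⟩, Int.toNat_natCast]
  have hvb : ∀ t, |v t| ≤ (h : ℤ) := by
    intro t
    by_cases ht : 0 ≤ t ∧ t < k
    · obtain ⟨m, rfl⟩ := Int.eq_ofNat_of_zero_le ht.1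
      have hm : m < k := by exact_mod_cast ht.2
      rw [hv0 m hm]
      exact hu m hm
    · rw [hvdef]
      simp only
      rw [if_neg ht, abs_zero]
      positivity
  -- the two factorisations
  obtain ⟨H, hH⟩ : G n ^ r ∣ (X ^ N - 1 : ℤ[X]) ^ (r * E) := by
    rw [mul_comm r E, pow_mul]
    exact pow_dvd_pow_of_dvd (G_dvd n) r
  obtain ⟨Q, hQ⟩ : (X - 1 : ℤ[X]) ^ (D + 1) ∣ G n ^ r := by
    refine (pow_dvd_pow _ hr).trans ?_
    rw [mul_comm r E, pow_mul]
    exact pow_dvd_pow_of_dvd (X_sub_one_dvd n) r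
  have hXN : (X ^ N - 1 : ℤ[X]) = X ^ N - C 1 := by simp
  have hX1 : (X - 1 : ℤ[X]) = X - C 1 := by simp
  have hmon : (X ^ N - 1 : ℤ[X]).Monic := by
    rw [hXN]
    exact monic_X_pow_sub_C 1 hN0
  have hmon1 : (X - 1 : ℤ[X]).Monic := by
    rw [hX1]
    exact monic_X_sub_C 1
  have hne : (X ^ N - 1 : ℤ[X]) ^ (r * E) ≠ 0 := (hmon.pow _).ne_zero
  have hG0 : G n ^ r ≠ 0 := by
    intro h0
    rw [h0, zero_mul] at hH
    exact hne hH
  have hH0 : H ≠ 0 := by
    intro h0
    rw [h0, mul_zero] at hH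
    exact hne hH
  have hQ0 : Q ≠ 0 := by
    intro h0
    rw [h0, mul_zero] at hQ
    exact hG0 hQ
  have hdH : N * (r * E) = (G n ^ r).natDegree + H.natDegree := by
    rw [← natDegree_mul hG0 hH0, ← hH, natDegree_pow, hXN, natDegree_X_pow_sub_C]
    ring
  have hdQ : (G n ^ r).natDegree = (D + 1) + Q.natDegree := by
    rw [hQ, natDegree_mul (hmon1.pow _).ne_zero hQ0, natDegree_pow, hX1, natDegree_X_sub_C, mul_one]
  set W := act (G n ^ r) v with hW
  have hW0 : ∀ j : ℕ, j + (G n ^ r).natDegree < k → W j = 0 := by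
    intro j hj
    apply Int.eq_zero_of_abs_lt_dvd (m := (p : ℤ))
    · have e1 : W = act Q (act ((X - 1) ^ (D + 1)) v) := by
        rw [hW, ← act_mul, mul_comm Q, ← hQ]
      rw [e1, act_eq_sum]
      apply Finset.dvd_sum
      intro i hi
      rw [Finset.mem_range] at hi
      apply Dvd.dvd.mul_left
      have e2 := fd_eq k u v hv0 1 (D + 1) (j + i) (by omega)
      rw [pow_one] at e2
      have e3 : ((j : ℤ) + (i : ℤ)) = ((j + i : ℕ) : ℤ) := by push_cast; rfl
      rw [e3, ← e2]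
      exact hd (j + i) (by omega)
    · refine (act_G_pow n r v h hvb j).trans_lt ?_
      exact_mod_cast hp
  intro j hj
  rw [fd_eq k u v hv0 N (r * E) j hj, hH, mul_comm, act_mul, ← hW, act_eq_sum]
  apply Finset.sum_eq_zero
  intro i hi
  rw [Finset.mem_range] at hi
  have e3 : ((j : ℤ) + (i : ℤ)) = ((j + i : ℕ) : ℤ) := by push_cast; rfl
  rw [e3, hW0 (j + i) (by omega), mul_zero]

end Vale.Agent.P057.H559
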